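import Vale.Agent.P284.H501.Pot.Ap

/-!
# P284 (helper501), potentials on the fibres: `PotS` from the local statements
-/

open scoped Manifold ContDiff Topology InnerProductSpace ComplexConjugate ENNReal Matrix
open Filter Set MeasureTheory Metric

noncomputable section

set_option linter.unusedSectionVars false

namespace Vale.Agent.P284.H501.Pot

open Vale.Agent.P272.K Vale.Agent.P284.H894 Vale.Agent.P284.H894.G Vale.Agent.P284.H894.V
  Vale.Agent.P284.H894.W Vale.Agent.P284.H501 Vale.Agent.P284.H501.Core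
  Vale.Agent.P284.H402.A Vale.Agent.P284.H402.B Vale.Agent.P284.H551 Vale.Agent.P284.H366
  Vale.Agent.P284.H366.PT
open Vale.Agent.P284.H619 hiding L2

section cov
variable {n q : ℕ} {Γ X E : Type} [Group Γ] [TopologicalSpace X] [ChartedSpace (Cm n) X]
  [TopologicalSpace E] [MulAction Γ E] {p : E → X} {C : Coc n Γ}
  (hG : IsGalois Γ p) (D : ECoc p C) {F : E → Cm q}
  {f : ℕ → Γ → C.I → Cm n → ℝ} {hf : ∀ k, IsTst C (f k)} {U : Ultrafilter ℕ} {Dm : MD C}
  {b : ℕ → Cm q → L2 Γ}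

include hG in
/-- nearby points of a sheet -/
theorem sheet_near (γ : Γ) {a : C.I} {z : Cm n} (hz : z ∈ Dm.Q a) {P : Cm n → Prop}
    (hP : ∀ᶠ z' in 𝓝 z, P z') :
    ∀ᶠ y in 𝓝 (γ • D.σ a z), P (D.e a (p y)) ∧ D.e a (p y) ∈ Dm.Q a ∧
      γ • D.σ a (D.e a (p y)) = y ∧ p y ∈ (D.e a).source := by
  have hzΩ := V_sub_Ω C a (Dm.Q_sub a hz)
  have hcπ : ContinuousAt p (γ • D.σ a z) := hG.cov.continuous.continuousAt
  have hpy : p (γ • D.σ a z) = (D.e a).symm z := D.proj' hG γ hzΩ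
  have he : ContinuousAt (fun y => D.e a (p y)) (γ • D.σ a z) := by
    refine ContinuousAt.comp ?_ hcπ
    rw [hpy]
    exact (D.e a).continuousAt (D.source hzΩ)
  have hval : D.e a (p (γ • D.σ a z)) = z := D.e_proj hG γ hzΩ
  have h1 : ∀ᶠ y in 𝓝 (γ • D.σ a z), P (D.e a (p y)) ∧ D.e a (p y) ∈ Dm.Q a := by
    refine he.eventually (p := fun z' => P z' ∧ z' ∈ Dm.Q a) ?_
    show ∀ᶠ z' in 𝓝 (D.e a (p (γ • D.σ a z))), P z' ∧ z' ∈ Dm.Q a
    rw [hval]
    exact hP.and ((Dm.Q_open a).mem_nhds hz)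
  filter_upwards [h1, D.ev hG γ hzΩ] with y g1 g2
  exact ⟨g1.1, g1.2, g2.2.2, g2.1⟩

include hG in
/-- every point lies on a sheet -/
theorem exists_sh (Dm : MD C) (y : E) : ∃ (γ : Γ) (a : C.I) (z : Cm n), z ∈ Dm.Q a ∧
    γ • D.σ a z = y := by
  obtain ⟨γ, a, -, h2, h3⟩ := D.exists_sheet hG y
  exact ⟨γ, a, _, Dm.W_sub a h2, h3⟩

include hG in
/-- **the set of the points with an approximation is open and closed in the fibre** -/
theorem step (hLT : LocTransStmt) {y₁ : E}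
    (han : ∀ γ a, ∀ z ∈ C.Ω a, AnalyticAt ℂ (Fc D F γ a) z)
    (hreg : ∀ γ a z, z ∈ Dm.Q a → γ • D.σ a z = y₁ → Function.Surjective (fderiv ℂ (Fc D F γ a) z))
    (hLP : ∀ γ a z₁, z₁ ∈ Dm.Q a → γ • D.σ a z₁ = y₁ →
      ∃ b : ℕ → Cm q → L2 Γ, ∀ᶠ z in 𝓝 z₁,
        ∃ V, Appr U z V fun k y => PhiF (hf k) γ a y - b k (Fc D F γ a y)) :
    ∀ᶠ y in 𝓝 y₁, F y = F y₁ →
      ((∃ m, ApV D F hf U Dm b y₁ m) ↔ ∃ m, ApV D F hf U Dm b y m) := by
  obtain ⟨γ, a, z₁, hz₁, hy₁⟩ := exists_sh hG D Dm y₁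
  obtain ⟨b', hb'⟩ := hLP γ a z₁ hz₁ hy₁
  have hzΩ := V_sub_Ω C a (Dm.Q_sub a hz₁)
  obtain ⟨N, hN, hN'⟩ := hLT n q (fun _ => L2 Γ) U (Fc D F γ a) z₁ (han γ a z₁ hzΩ)
    (hreg γ a z₁ hz₁ hy₁) fun k v => b' k v - b k v
  have key : ∀ z z', z ∈ N → z' ∈ N → Fc D F γ a z = Fc D F γ a z' →
      (∃ V, Appr U z V fun k y => PhiF (hf k) γ a y - b' k (Fc D F γ a y)) →
      (∃ V, Appr U z' V fun k y => PhiF (hf k) γ a y - b' k (Fc D F γ a y)) →
      (∃ V, Ap D F hf U b γ a z V) → ∃ V, Ap D F hf U b γ a z' V := by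
    rintro z z' hz hz' hzz ⟨V₁, h1⟩ ⟨V₂, h2⟩ ⟨V₃, h3⟩
    obtain ⟨V₄, h4⟩ := hN' z hz z' hz' hzz ⟨fun k y => V₃ k y - V₁ k y, by
      refine (Appr.sub h3 h1).congr (Eventually.of_forall fun x k => rfl)
        (Eventually.of_forall fun x k => ?_)
      abel⟩
    refine ⟨fun k y => V₂ k y + V₄ k y, ?_⟩
    refine (Appr.add h2 h4).congr (Eventually.of_forall fun x k => rfl)
      (Eventually.of_forall fun x k => ?_)
    abel
  have hev := sheet_near (Dm := Dm) hG D γ hz₁ (P := fun z => z ∈ N ∧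
    ∃ V, Appr U z V fun k y => PhiF (hf k) γ a y - b' k (Fc D F γ a y))
    ((show ∀ᶠ z in 𝓝 z₁, z ∈ N from hN).and hb')
  rw [hy₁] at hev
  have hFc : ∀ z, Fc D F γ a z = F (γ • D.σ a z) := fun z => rfl
  filter_upwards [hev] with y hy hFy
  obtain ⟨⟨g1, g2⟩, g3, g4, g5⟩ := hy
  have e1 : Fc D F γ a z₁ = Fc D F γ a (D.e a (p y)) := by
    rw [hFc, hFc, hy₁, g4, hFy]
  constructor
  · rintro ⟨m, hm⟩
    obtain ⟨V, hV, -⟩ := apV_sheet hG D hm hz₁ hy₁
    obtain ⟨V', hV'⟩ := key z₁ _ (mem_of_mem_nhds hN) g1 e1 hb'.self_of_nhds g2 ⟨V, hV⟩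
    exact ⟨_, γ, a, _, V', g3, g4, hV', rfl⟩
  · rintro ⟨m, hm⟩
    obtain ⟨V, hV, -⟩ := apV_sheet hG D hm g3 g4
    obtain ⟨V', hV'⟩ := key _ z₁ g1 (mem_of_mem_nhds hN) e1.symm g2 hb'.self_of_nhds ⟨V, hV⟩
    exact ⟨_, γ, a, _, V', hz₁, hy₁, hV', rfl⟩

include hG in
/-- **approximations on a connected regular fibre** -/
theorem exists_ap (hLT : LocTransStmt) {t : Cm q} (hcon : IsConnected (F ⁻¹' {t}))
    (han : ∀ γ a, ∀ z ∈ C.Ω a, AnalyticAt ℂ (Fc D F γ a) z)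
    (hreg : ∀ γ a z, z ∈ Dm.Q a → F (γ • D.σ a z) = t →
      Function.Surjective (fderiv ℂ (Fc D F γ a) z))
    (hLP : ∀ γ a z₁, z₁ ∈ Dm.Q a → F (γ • D.σ a z₁) = t →
      ∃ b : ℕ → Cm q → L2 Γ, ∀ᶠ z in 𝓝 z₁,
        ∃ V, Appr U z V fun k y => PhiF (hf k) γ a y - b k (Fc D F γ a y)) :
    ∃ b : ℕ → Cm q → L2 Γ, ∀ y, F y = t → ∃ m, ApV D F hf U Dm b y m := by
  obtain ⟨y₀, hy₀⟩ := hcon.nonempty
  obtain ⟨γ, a, z₀, hz₀, hyz⟩ := exists_sh hG D Dm y₀
  have hy₀' : F (γ • D.σ a z₀) = t := by rw [hyz]; exact hy₀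
  obtain ⟨b, hb⟩ := hLP γ a z₀ hz₀ hy₀'
  obtain ⟨V, hV⟩ := hb.self_of_nhds
  have h0 : ∃ m, ApV D F hf U Dm b y₀ m := ⟨_, γ, a, z₀, V, hz₀, hyz, hV, rfl⟩
  refine ⟨b, fun y hy => ?_⟩
  refine hcon.isPreconnected.induction₂' (fun y y' => (∃ m, ApV D F hf U Dm b y m) →
    ∃ m, ApV D F hf U Dm b y' m) (fun y₁ hy₁ => ?_) (fun x y z _ _ _ h1 h2 h => h2 (h1 h)) hy₀ hy h0
  have hst := step (Dm := Dm) (b := b) (hf := hf) (U := U) hG D hLT (y₁ := y₁) han
    (fun γ a z hz hzy => hreg γ a z hz (by rw [hzy]; exact hy₁))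
    (fun γ a z hz hzy => hLP γ a z hz (by rw [hzy]; exact hy₁))
  filter_upwards [mem_nhdsWithin_of_mem_nhds hst, self_mem_nhdsWithin] with y h1 h2
  have h3 := h1 ((show F y = t from h2).trans (show F y₁ = t from hy₁).symm)
  exact ⟨h3.1, h3.2⟩

include hG in
/-- the values near a point, on the fibre, from one approximation -/
theorem val_near {γ : Γ} {a : C.I} {z₁ : Cm n} (hz₁ : z₁ ∈ Dm.Q a) {V : ℕ → Cm n → L2 Γ}
    (hV : Ap D F hf U b γ a z₁ V) :
    ∀ᶠ y in 𝓝 (γ • D.σ a z₁), ∀ m, ApV D F hf U Dm b y m →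
      m = mk U (fun k => V k (D.e a (p y))) := by
  filter_upwards [sheet_near (Dm := Dm) hG D γ hz₁ (appr_near hV)] with y hy m hm
  exact apV_unique hG D hm ⟨γ, a, _, V, hy.2.1, hy.2.2.1, hy.1, rfl⟩

end cov

/-- **`PotS` from the local statements.** -/
theorem potS_of (hLP : LocPotStmt) (hLD : LocDerStmt) (hLT : LocTransStmt) (hLC : LocConstStmt) :
    PotS := by
  classical
  intro n X _ _ _ _ _ _ w hw E Γ _ _ _ _ p hG C D K hKw q F c B hF hc hreg f hf U hT Dm t hcon hregt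
  have hp := hG.cov
  have hp' := hp.isLocalHomeomorph
  have hVΩ : ∀ a, Dm.Q a ⊆ C.Ω a := fun a => (Dm.Q_sub a).trans (V_sub_Ω C a)
  have han : ∀ γ a, ∀ z ∈ C.Ω a, AnalyticAt ℂ (Fc D F γ a) z := fun γ a z hz =>
    Fc_an hG D hF γ hz
  have hsurj : ∀ γ a z, z ∈ Dm.Q a → F (γ • D.σ a z) = t →
      Function.Surjective (fderiv ℂ (Fc D F γ a) z) := fun γ a z hz hzt =>
    (reg_iff hG D hF γ (hVΩ a hz)).1 (hregt _ hzt)
  obtain ⟨b, hb⟩ := exists_ap (hf := hf) (U := U) (Dm := Dm) hG D hLT hcon han hsurj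
    (fun γ a z₁ hz₁ hzt => hLP n X w hw E Γ p hG C D K hKw q F c B hF hc hreg f hf U hT Dm γ a
      z₁ hz₁ (hsurj γ a z₁ hz₁ hzt))
  set u : E → WU Γ U := fun y => if h : ∃ m, ApV D F hf U Dm b y m then h.choose else 0 with hu
  have hu1 : ∀ y, F y = t → ApV D F hf U Dm b y (u y) := by
    intro y hy
    have h := hb y hy
    rw [hu]
    simp only
    rw [dif_pos h]
    exact h.choose_spec
  have hcf : CForm C Dm.Q (LimS Dm U fun k => tf (hfF hG D K hKw hF hc hreg) (hf k)) :=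
    cform_lim Dm hT
  refine ⟨u, ?_, ?_⟩
  · intro y e hyt he x₀
    obtain ⟨γ, a, z₁, hz₁, hy⟩ := exists_sh hG D Dm y
    have hz₁Ω := hVΩ a hz₁
    obtain ⟨V, hV, hVu⟩ := apV_sheet hG D (hu1 y hyt) hz₁ hy
    obtain ⟨G, hG1, hG2⟩ := hLD n X w hw E Γ p hG C D K hKw q F c B hF hc hreg f hf U hT Dm γ a z₁
      hz₁ (hsurj γ a z₁ hz₁ (by rw [hy]; exact hyt)) b V hV
    set s := LimS Dm U (fun k => tf (hfF hG D K hKw hF hc hreg) (hf k)) with hs
    set τ : Cm n → Cm n := fun x => D.e a (e.symm x) with hτ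
    have ha : At (D.e a) (p y) := by
      rw [← hy]
      exact D.at_sheet hG γ hz₁Ω
    have hez : D.e a (p y) = z₁ := by
      rw [← hy]
      exact D.e_proj hG γ hz₁Ω
    have hτz : τ (e (p y)) = z₁ := by
      show D.e a (e.symm (e (p y))) = z₁
      rw [e.left_inv he.2, hez]
    have hτan : AnalyticAt ℂ τ (e (p y)) := (transition he ha).analyticAt
    set k₀ : ℂ := ⟪x₀, u y - G z₁ - cjU Γ U (G z₁)⟫_ℂ with hk₀
    have hGτ : AnalyticAt ℂ (fun x => G (τ x)) (e (p y)) := by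
      refine AnalyticAt.comp (g := G) ?_ hτan
      rw [hτz]
      exact hG1
    have hin : ∀ x₁ : WU Γ U, AnalyticAt ℂ (fun x => ⟪x₁, G (τ x)⟫_ℂ) (e (p y)) := fun x₁ =>
      ((innerSL ℂ x₁).analyticAt _).comp hGτ
    refine ⟨fun x => ⟪x₀, G (τ x)⟫_ℂ + k₀, fun x => ⟪cjU Γ U x₀, G (τ x)⟫_ℂ,
      (hin x₀).add analyticAt_const, hin _, ?_⟩
    have hev1 := sheet_near (Dm := Dm) hG D γ hz₁ (hG2.and hG1.eventually_analyticAt)
    have hev2 := val_near (Dm := Dm) hG D hz₁ hV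
    rw [hy] at hev1 hev2
    have hev3 : ∀ᶠ y' in 𝓝 y, AnalyticAt ℂ τ (e (p y')) :=
      (ev_iff hp he (Q := fun x => AnalyticAt ℂ τ x)).2 hτan.eventually_analyticAt
    filter_upwards [hev1, hev2, hev3, at_ev hp he] with y' g1 g2 g3 g4 hy't
    obtain ⟨⟨⟨g5, g6⟩, g7⟩, g8, g9, g10⟩ := g1
    set z' := D.e a (p y') with hz'
    have hτz' : τ (e (p y')) = z' := by
      show D.e a (e.symm (e (p y'))) = z'
      rw [e.left_inv g4.2]
    have hFz : Fc D F γ a z' = Fc D F γ a z₁ := by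
      rw [Fc, Fc, g9, hy, hy't, hyt]
    have hval : u y' = u y + (G z' - G z₁) + (cjU Γ U (G z') - cjU Γ U (G z₁)) := by
      rw [g2 _ (hu1 y' hy't), g6 hFz, hVu]
    constructor
    · simp only [hτz']
      have h1 : conj ⟪cjU Γ U x₀, G z'⟫_ℂ = ⟪x₀, cjU Γ U (G z')⟫_ℂ := (inner_cjU x₀ (G z')).symm
      rw [h1, hk₀, ← inner_add_right, ← inner_add_right, hval]
      congr 1
      abel
    · intro ξ hξ
      have hd1 : DifferentiableAt ℂ τ (e (p y')) := g3.differentiableAt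
      have hd2 : DifferentiableAt ℂ G (τ (e (p y'))) := by
        rw [hτz']
        exact g7.differentiableAt
      -- the derivative of `g`
      have e1 : fderiv ℂ (fun x => ⟪x₀, G (τ x)⟫_ℂ + k₀) (e (p y')) ξ =
          ⟪x₀, fderiv ℂ G z' (fderiv ℂ τ (e (p y')) ξ)⟫_ℂ := by
        have h1 : HasFDerivAt (fun x => ⟪x₀, G (τ x)⟫_ℂ + k₀)
            ((innerSL ℂ x₀).comp ((fderiv ℂ G z').comp (fderiv ℂ τ (e (p y'))))) (e (p y')) := by
          have h2 : HasFDerivAt (fun x => G (τ x))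
              ((fderiv ℂ G z').comp (fderiv ℂ τ (e (p y')))) (e (p y')) := by
            have h3 := hd2.hasFDerivAt.comp (e (p y')) hd1.hasFDerivAt
            rw [hτz'] at h3
            exact h3
          exact ((innerSL ℂ x₀).hasFDerivAt.comp (e (p y')) h2).add_const k₀
        rw [h1.fderiv]
        rfl
      rw [e1]
      congr 1
      -- the relative form
      have hz'Ω := hVΩ a g8
      have hanz := han γ a z' hz'Ω
      have hrep : H501.Rep p F y' e fun x => Fc D F γ a (τ x) := by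
        constructor
        · refine AnalyticAt.comp (g := Fc D F γ a) ?_ g3
          rw [hτz']
          exact hanz
        · have h5 := Fc_rep hG D F γ hz'Ω
          rw [g9] at h5
          filter_upwards [h5, at_ev hp g4] with y'' h6 h7
          rw [h6]
          show _ = Fc D F γ a (D.e a (e.symm (e (p y''))))
          rw [e.left_inv h7.2]
      have e2 : fderiv ℂ (fun x => Fc D F γ a (τ x)) (e (p y')) =
          (fderiv ℂ (Fc D F γ a) z').comp (fderiv ℂ τ (e (p y'))) := by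
        have h3 := (show DifferentiableAt ℂ (Fc D F γ a) (τ (e (p y'))) by
          rw [hτz']; exact hanz.differentiableAt).hasFDerivAt.comp (e (p y')) hd1.hasFDerivAt
        rw [hτz'] at h3
        exact h3.fderiv
      have hsj : Function.Surjective (fderiv ℂ (fun x => Fc D F γ a (τ x)) (e (p y'))) :=
        hregt y' hy't e _ g4 hrep.2
      have e3 : SE hG D s y' e = (s γ a z').compContinuousLinearMap (fderiv ℂ τ (e (p y'))) := by
        have h5 := SE_eq hG D hcf γ g8 (e := e) (by rw [g9]; exact g4)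
        rw [g9] at h5
        exact h5
      have hisW : IsW (fderiv ℂ (fun x => Fc D F γ a (τ x)) (e (p y'))) (SE hG D s y' e)
          ((fderiv ℂ G z').comp (fderiv ℂ τ (e (p y')))) := by
        intro ξ'
        rw [e2, e3, ContinuousAlternatingMap.compContinuousLinearMap_apply, g5]
        rfl
      have hvert : fderiv ℂ (fun x => Fc D F γ a (τ x)) (e (p y')) ξ = 0 := hξ _ hrep.2
      exact (ThE_isTh (S := SE hG D s) hG.cov y' e _ g4 hrep hsj _ hisW ξ hvert).symm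
  · intro k hk
    have hFk : ∀ y, F (k • y) = F y := fun y => by rw [hc, hk, add_zero]
    set δ : E → WU Γ U := fun y => u (k • y) - piU Γ U k (u y) with hδ
    obtain ⟨y₀, hy₀⟩ := hcon.nonempty
    refine ⟨δ y₀, fun y hy => ?_⟩
    have hconst : δ y₀ = δ y := by
      refine hcon.isPreconnected.induction₂' (fun y y' => δ y = δ y') (fun y₁ hy₁ => ?_)
        (fun x y z _ _ _ h1 h2 => h1.trans h2) hy₀ hy
      have hy₁t : F y₁ = t := hy₁
      obtain ⟨γ, a, z₁, hz₁, hyz⟩ := exists_sh hG D Dm y₁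
      have hz₁Ω := hVΩ a hz₁
      obtain ⟨V, hV, hVu⟩ := apV_sheet hG D (hu1 y₁ hy₁t) hz₁ hyz
      have hkyz : (k * γ) • D.σ a z₁ = k • y₁ := by rw [mul_smul, hyz]
      obtain ⟨V', hV', hVu'⟩ := apV_sheet hG D (hu1 (k • y₁) ((hFk _).trans hy₁t)) hz₁ hkyz
      have hFck : ∀ z, Fc D F (k * γ) a z = Fc D F γ a z := fun z => by
        rw [Fc, Fc, mul_smul, hFk]
      -- the difference approximates a function of `F`
      set β : ℕ → Cm q → L2 Γ := fun j v => lam Γ k (b j v) - b j v with hβ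
      have hd : Appr U z₁ (fun j x => V' j x - lam Γ k (V j x)) fun j x => β j (Fc D F γ a x) := by
        have h1 : Appr U z₁ V' fun j x => PhiF (hf j) (k * γ) a x - b j (Fc D F (k * γ) a x) := hV'
        have h2 : Appr U z₁ (fun j x => lam Γ k (V j x)) fun j x =>
            lam Γ k (PhiF (hf j) γ a x - b j (Fc D F γ a x)) := appr_iso hV fun _ => lam Γ k
        refine (h1.sub h2).congr (Eventually.of_forall fun x j => rfl)
          (Eventually.of_forall fun x j => ?_)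
        simp only [hβ]
        rw [PhiF_equiv, hFck, map_sub]
        abel
      have hlc := hLC n q (fun _ => L2 Γ) U (Fc D F γ a) z₁ (han γ a z₁ hz₁Ω)
        (hsurj γ a z₁ hz₁ (by rw [hyz]; exact hy₁t)) _ β hd
      -- the value of `δ` near `y₁`
      have hval : ∀ᶠ y in 𝓝 y₁, F y = t → δ y =
          mk U (fun j => V' j (D.e a (p y)) - lam Γ k (V j (D.e a (p y)))) := by
        have hv1 := val_near (Dm := Dm) hG D hz₁ hV
        have hv2 := val_near (Dm := Dm) hG D hz₁ hV'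
        rw [hyz] at hv1
        rw [hkyz] at hv2
        have hv3 : ∀ᶠ y in 𝓝 y₁, ∀ m, ApV D F hf U Dm b (k • y) m →
            m = mk U (fun j => V' j (D.e a (p (k • y)))) :=
          (hG.cont k).continuousAt.eventually hv2
        have hev := sheet_near (Dm := Dm) hG D γ hz₁ ((appr_near hV).and (appr_near hV'))
        rw [hyz] at hev
        filter_upwards [hv1, hv3, hev] with y h1 h2 h3 hyt
        have e1 := h1 _ (hu1 y hyt)
        have e2 := h2 _ (hu1 (k • y) ((hFk _).trans hyt))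
        rw [ECoc.p_smul hG k y] at e2
        have hbd1 : Bd fun j => V j (D.e a (p y)) := h3.1.1.bdd
        have hbd2 : Bd fun j => V' j (D.e a (p y)) := h3.1.2.bdd
        show u (k • y) - piU Γ U k (u y) = _
        rw [e2, e1, piU, upRep_mk _ _ hbd1, ← mk_sub hbd2 (hbd1.iso fun _ => lam Γ k)]
        rfl
      have hez : D.e a (p y₁) = z₁ := by
        rw [← hyz]
        exact D.e_proj hG γ hz₁Ω
      have hev4 := sheet_near (Dm := Dm) hG D γ hz₁ hlc
      rw [hyz] at hev4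
      have h0 := hval.self_of_nhds hy₁t
      rw [hez] at h0
      filter_upwards [mem_nhdsWithin_of_mem_nhds hval, mem_nhdsWithin_of_mem_nhds hev4,
        self_mem_nhdsWithin] with y h1 h2 h3
      have hyt : F y = t := h3
      have hFz : Fc D F γ a (D.e a (p y)) = Fc D F γ a z₁ := by
        rw [Fc, Fc, h2.2.2.1, hyz, hyt, hy₁t]
      have h4 : δ y₁ = δ y := by rw [h1 hyt, h0, h2.1 hFz]
      exact ⟨h4, h4.symm⟩
    rw [hconst]
    show _ = piU Γ U k (u y) + (u (k • y) - piU Γ U k (u y))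
    abel

end Vale.Agent.P284.H501.Pot
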