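import Vale.Agent.P284.H366.PT.Spec

/-!
# P284 (helper501), potentials: approximations of the lifted test functions on the covering
-/

open scoped Manifold ContDiff Topology InnerProductSpace ComplexConjugate ENNReal Matrix
open Filter Set MeasureTheory Metric

noncomputable section

set_option linter.unusedSectionVars false

namespace Vale.Agent.P284.H501.Pot

open Vale.Agent.P272.K Vale.Agent.P284.H894 Vale.Agent.P284.H894.G Vale.Agent.P284.H894.V
  Vale.Agent.P284.H894.W Vale.Agent.P284.H501 Vale.Agent.P284.H501.Core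
  Vale.Agent.P284.H402.A Vale.Agent.P284.H402.B Vale.Agent.P284.H551 Vale.Agent.P284.H366
  Vale.Agent.P284.H366.PT
open Vale.Agent.P284.H619 hiding L2

/-! ### Calculus of approximations -/

section appr
variable {n : ℕ} {H : ℕ → Type} [∀ k, NormedAddCommGroup (H k)] [∀ k, InnerProductSpace ℂ (H k)]
  {U : Ultrafilter ℕ}

theorem apprOn_shift {z₀ z : Cm n} {v φ : ∀ k, Cm n → H k} {ρ C : ℝ} (h : ApprOn U z₀ v φ ρ C)
    (hz : z ∈ ball z₀ ρ) : ApprOn U z v φ (ρ - dist z z₀) C := by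
  have hs : ball z (ρ - dist z z₀) ⊆ ball z₀ ρ := by
    refine ball_subset_ball' ?_
    linarith
  refine ⟨by rw [mem_ball] at hz; linarith, h.nn, fun k x hx => h.bd k x (hs hx),
    fun k x hx x' hx' => h.lip k x (hs hx) x' (hs hx'), fun k => (h.cont k).mono hs,
    fun k => (h.int k).mono_set hs, ?_⟩
  refine squeeze_zero (fun k => integral_nonneg fun z => sq_nonneg _) (fun k => ?_) h.lim
  exact setIntegral_mono_set (h.int k) (Eventually.of_forall fun z => sq_nonneg _) hs.eventuallyLE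

/-- an approximation near a point is an approximation near the nearby points -/
theorem appr_near {z₀ : Cm n} {v φ : ∀ k, Cm n → H k} (h : Appr U z₀ v φ) :
    ∀ᶠ z in 𝓝 z₀, Appr U z v φ := by
  obtain ⟨ρ, C, h⟩ := h
  filter_upwards [ball_mem_nhds z₀ h.pos] with z hz
  exact ⟨_, _, apprOn_shift h hz⟩

theorem appr_iso {z₀ : Cm n} {v φ : ∀ k, Cm n → H k} (h : Appr U z₀ v φ)
    (A : ∀ k, H k ≃ₗᵢ[ℂ] H k) :
    Appr U z₀ (fun k z => A k (v k z)) (fun k z => A k (φ k z)) := by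
  obtain ⟨ρ, C, h⟩ := h
  have e : ∀ k z, ‖A k (v k z) - A k (φ k z)‖ = ‖v k z - φ k z‖ := fun k z => by
    rw [← map_sub, LinearIsometryEquiv.norm_map]
  refine ⟨ρ, C, h.pos, h.nn, fun k z hz => ?_, fun k z hz z' hz' => ?_, fun k => ?_, fun k => ?_, ?_⟩
  · rw [LinearIsometryEquiv.norm_map]
    exact h.bd k z hz
  · rw [← map_sub, LinearIsometryEquiv.norm_map]
    exact h.lip k z hz z' hz'
  · exact (A k).continuous.comp_continuousOn (h.cont k)
  · simp only [e]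
    exact h.int k
  · simp only [e]
    exact h.lim

end appr

/-! ### Conjugation -/

section cjs
variable {Γ : Type}

theorem inner_cj (u v : L2 Γ) : ⟪u, cj Γ v⟫_ℂ = conj ⟪cj Γ u, v⟫_ℂ := by
  have h1 : ⟪u, cj Γ v⟫_ℂ = ∑' x, ⟪co u x, co (cj Γ v) x⟫_ℂ := lp.inner_eq_tsum _ _
  have h2 : ⟪cj Γ u, v⟫_ℂ = ∑' x, ⟪co (cj Γ u) x, co v x⟫_ℂ := lp.inner_eq_tsum _ _
  rw [h1, h2, Complex.conj_tsum]
  refine tsum_congr fun x => ?_
  have e1 : co (cj Γ v) x = conj (co v x) := rfl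
  have e2 : co (cj Γ u) x = conj (co u x) := rfl
  rw [e1, e2]
  simp [RCLike.inner_apply]

theorem bd_cj {x : ℕ → L2 Γ} (hx : Bd x) : Bd fun k => cj Γ (x k) := by
  obtain ⟨C, hC⟩ := hx
  exact ⟨C, fun k => by rw [norm_cj]; exact hC k⟩

theorem inner_cjU {U : Ultrafilter ℕ} (x y : WU Γ U) :
    ⟪x, cjU Γ U y⟫_ℂ = conj ⟪cjU Γ U x, y⟫_ℂ := by
  have hc1 : ∀ y : WU Γ U, IsClosed {x : WU Γ U | ⟪x, cjU Γ U y⟫_ℂ = conj ⟪cjU Γ U x, y⟫_ℂ} := by
    intro y
    refine isClosed_eq ?_ ?_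
    · exact continuous_id.inner continuous_const
    · exact Complex.continuous_conj.comp ((cjU Γ U).continuous.inner continuous_const)
  have hc2 : ∀ x : WU Γ U, IsClosed {y : WU Γ U | ⟪x, cjU Γ U y⟫_ℂ = conj ⟪cjU Γ U x, y⟫_ℂ} := by
    intro x
    refine isClosed_eq ?_ ?_
    · exact continuous_const.inner (cjU Γ U).continuous
    · exact Complex.continuous_conj.comp (continuous_const.inner continuous_id)
  refine dense_mk (fun x => ⟪x, cjU Γ U y⟫_ℂ = conj ⟪cjU Γ U x, y⟫_ℂ) (hc1 y) (fun x hx => ?_) x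
  refine dense_mk (fun y => ⟪mk U x, cjU Γ U y⟫_ℂ = conj ⟪cjU Γ U (mk U x), y⟫_ℂ) (hc2 _)
    (fun y hy => ?_) y
  rw [cjU_mk U hy, cjU_mk U hx]
  have h1 := inner_mk (U := U) hx (bd_cj hy)
  have h2 := inner_mk (U := U) (bd_cj hx) hy
  have h3 : Tendsto (fun k => ⟪x k, cj Γ (y k)⟫_ℂ) U (𝓝 (conj ⟪mk U (fun k => cj Γ (x k)),
      mk U y⟫_ℂ)) := by
    simp only [inner_cj]
    exact (Complex.continuous_conj.tendsto _).comp h2
  exact tendsto_nhds_unique h1 h3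

end cjs

/-! ### The lifted functions -/

section phi
variable {n : ℕ} {Γ : Type} [Group Γ] {C : Coc n Γ} {f : Γ → C.I → Cm n → ℝ}

theorem PhiF_equiv (hf : IsTst C f) (g γ : Γ) (a : C.I) (z : Cm n) :
    PhiF hf (g * γ) a z = lam Γ g (PhiF hf γ a z) := by
  rw [PhiF, PhiF, lam_vec]

theorem PhiF_compat (hf : IsTst C f) (γ : Γ) {a b : C.I} {z : Cm n} (hz : z ∈ C.O a b)
    (ha : z ∈ C.V a) (hb : C.T a b z ∈ C.V b) :
    PhiF hf γ a z = PhiF hf (γ * C.κ a b z) b (C.T a b z) := by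
  have h1 : ∀ g ∉ hf.fin.toFinset, ∀ b, ∀ y ∈ C.V b, f g b y = 0 := by
    intro g hg b y hy
    by_contra hne
    exact hg (hf.fin.mem_toFinset.2 ⟨b, y, hy, hne⟩)
  refine vec_shift _ γ (C.κ a b z) (fun g hg => ?_) (fun g hg => ?_) fun g => ?_
  · rw [h1 g hg a z ha, Complex.ofReal_zero]
  · rw [h1 g hg b _ hb, Complex.ofReal_zero]
  · rw [hf.compat g a b z hz]

end phi

/-! ### Approximations on the covering -/

section cov
variable {n q : ℕ} {Γ X E : Type} [Group Γ] [TopologicalSpace X] [ChartedSpace (Cm n) X]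
  [TopologicalSpace E] [MulAction Γ E] {p : E → X} {C : Coc n Γ}

/-- `V` approximates `Φ - b ∘ F` near the point `z` of the sheet `γ, a` -/
def Ap (D : ECoc p C) (F : E → Cm q) {f : ℕ → Γ → C.I → Cm n → ℝ} (hf : ∀ k, IsTst C (f k))
    (U : Ultrafilter ℕ) (b : ℕ → Cm q → L2 Γ) (γ : Γ) (a : C.I) (z : Cm n)
    (V : ℕ → Cm n → L2 Γ) : Prop :=
  Appr U z V fun k x => PhiF (hf k) γ a x - b k (Fc D F γ a x)

/-- `m` is the value at `y` of the limit of `Φ - b ∘ F` -/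
def ApV (D : ECoc p C) (F : E → Cm q) {f : ℕ → Γ → C.I → Cm n → ℝ} (hf : ∀ k, IsTst C (f k))
    (U : Ultrafilter ℕ) (Dm : MD C) (b : ℕ → Cm q → L2 Γ) (y : E) (m : WU Γ U) : Prop :=
  ∃ γ a z V, z ∈ Dm.Q a ∧ γ • D.σ a z = y ∧ Ap D F hf U b γ a z V ∧ mk U (fun k => V k z) = m

variable (hG : IsGalois Γ p) (D : ECoc p C) {F : E → Cm q}
  {f : ℕ → Γ → C.I → Cm n → ℝ} {hf : ∀ k, IsTst C (f k)} {U : Ultrafilter ℕ} {Dm : MD C}
  {b : ℕ → Cm q → L2 Γ}

include hG in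
/-- change of the sheet -/
theorem ap_change {γ γ' : Γ} {a a' : C.I} {z z' : Cm n} (hz : z ∈ Dm.Q a) (hz' : z' ∈ Dm.Q a')
    (h : γ • D.σ a z = γ' • D.σ a' z') {V' : ℕ → Cm n → L2 Γ}
    (hV : Ap D F hf U b γ' a' z' V') : ∃ V, Ap D F hf U b γ a z V ∧ ∀ k, V k z = V' k z' := by
  have hzV := Dm.Q_sub a hz
  have hzV' := Dm.Q_sub a' hz'
  obtain ⟨hO, hT, hκ⟩ := D.eq_imp hG (V_sub_Ω C a hzV) (V_sub_Ω C a' hzV') h
  refine ⟨fun k x => V' k (C.T a a' x), ?_, fun k => by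
    show V' k (C.T a a' z) = V' k z'
    rw [hT]⟩
  have h1 : Appr U (C.T a a' z) V' fun k x => PhiF (hf k) γ' a' x - b k (Fc D F γ' a' x) := by
    rw [hT]; exact hV
  have h2 := h1.comp_T C hO hzV (by rw [hT]; exact hzV')
  refine h2.congr (Eventually.of_forall fun x k => rfl) ?_
  have hc : ContinuousAt (C.T a a') z :=
    ((C.T_holo a a').differentiableAt ((C.O_open a a').mem_nhds hO)).continuousAt
  filter_upwards [(C.O_open a a').mem_nhds hO, isOpen_ball.mem_nhds hzV,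
    hc.eventually (isOpen_ball.mem_nhds (by rw [hT]; exact hzV')), C.κ_loc a a' z hO] with
    x g1 g2 g3 g4 k
  have e1 : PhiF (hf k) γ' a' (C.T a a' x) = PhiF (hf k) γ a x := by
    rw [PhiF_compat (hf k) γ g1 g2 g3, g4, hκ]
  have e2 : Fc D F γ' a' (C.T a a' x) = Fc D F γ a x := by
    have := D.smul_T (γ := γ) g1
    rw [g4, ← hκ] at this
    rw [Fc, Fc, this]
  rw [e1, e2]

include hG in
theorem apV_sheet {y : E} {m : WU Γ U} (h : ApV D F hf U Dm b y m) {γ : Γ} {a : C.I} {z : Cm n}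
    (hz : z ∈ Dm.Q a) (hy : γ • D.σ a z = y) :
    ∃ V, Ap D F hf U b γ a z V ∧ mk U (fun k => V k z) = m := by
  obtain ⟨γ', a', z', V', hz', hy', hV', hm⟩ := h
  obtain ⟨V, hV, he⟩ := ap_change hG D hz hz' (hy.trans hy'.symm) hV'
  refine ⟨V, hV, ?_⟩
  rw [← hm]
  congr 1
  funext k
  exact he k

include hG in
theorem apV_unique {y : E} {m m' : WU Γ U} (h : ApV D F hf U Dm b y m)
    (h' : ApV D F hf U Dm b y m') : m = m' := by
  obtain ⟨γ', a', z', V', hz', hy', hV', hm⟩ := h'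
  obtain ⟨V, hV, he⟩ := apV_sheet hG D h hz' hy'
  rw [← he, ← hm]
  exact hV.mk_eq hV'

end cov

end Vale.Agent.P284.H501.Pot
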